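/-
Helper62 — project S0171 (row 127), package WP-E (second, independent track): comparison of
time averages for a reversible chain.  Statements verbatim from `Crest.Agent.Helper75.MC.Spec`:
`pair_mul_le`, `stoch_pow`, `stoch_of_kernel`, `pair_one_le`, `pair_B_le`.
-/
import Crest.Agent.Helper75.MC.Defs

set_option autoImplicit false

namespace Crest.Agent.Helper62.MC

open Finset Crest.Agent.Helper75.MC

variable {n : ℕ}

/-! ### linearity and positivity of `pair` -/

theorem pair_add (w : Fin n → ℝ) (K K' : Matrix (Fin n) (Fin n) ℝ) (D : Fin n → Fin n → ℝ) :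
    pair w (K + K') D = pair w K D + pair w K' D := by
  unfold pair
  simp only [Matrix.add_apply, mul_add, add_mul, Finset.sum_add_distrib]

theorem pair_smul (w : Fin n → ℝ) (c : ℝ) (K : Matrix (Fin n) (Fin n) ℝ)
    (D : Fin n → Fin n → ℝ) : pair w (c • K) D = c * pair w K D := by
  unfold pair
  simp only [Matrix.smul_apply, smul_eq_mul, Finset.mul_sum]
  exact Finset.sum_congr rfl fun i _ => Finset.sum_congr rfl fun j _ => by ring

theorem pair_zero (w : Fin n → ℝ) (D : Fin n → Fin n → ℝ) :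
    pair w (0 : Matrix (Fin n) (Fin n) ℝ) D = 0 := by
  unfold pair
  simp

theorem pair_sum {ι : Type*} (s : Finset ι) (w : Fin n → ℝ)
    (K : ι → Matrix (Fin n) (Fin n) ℝ) (D : Fin n → Fin n → ℝ) :
    pair w (∑ a ∈ s, K a) D = ∑ a ∈ s, pair w (K a) D := by
  classical
  induction s using Finset.induction_on with
  | empty => simp [pair_zero]
  | insert a s ha ih => rw [Finset.sum_insert ha, Finset.sum_insert ha, pair_add, ih]

theorem pair_nonneg {w : Fin n → ℝ} (hw : ∀ i, 0 ≤ w i) {K : Matrix (Fin n) (Fin n) ℝ}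
    (hK : ∀ i j, 0 ≤ K i j) {D : Fin n → Fin n → ℝ} (hD0 : ∀ i j, 0 ≤ D i j) :
    0 ≤ pair w K D := by
  unfold pair
  exact Finset.sum_nonneg fun i _ => Finset.sum_nonneg fun j _ =>
    mul_nonneg (mul_nonneg (hw i) (hK i j)) (hD0 i j)

/-! ### stochastic matrices -/

theorem stoch_one (w : Fin n → ℝ) : Stoch w (1 : Matrix (Fin n) (Fin n) ℝ) where
  nonneg i j := by
    rw [Matrix.one_apply]
    split_ifs <;> norm_num
  row i := by simp [Matrix.one_apply]
  stat j := by simp [Matrix.one_apply]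

theorem stoch_mul {w : Fin n → ℝ} {K K' : Matrix (Fin n) (Fin n) ℝ} (hK : Stoch w K)
    (hK' : Stoch w K') : Stoch w (K * K') where
  nonneg i j := by
    rw [Matrix.mul_apply]
    exact Finset.sum_nonneg fun k _ => mul_nonneg (hK.nonneg i k) (hK'.nonneg k j)
  row i := by
    simp only [Matrix.mul_apply]
    rw [Finset.sum_comm]
    have : ∀ k, ∑ j, K i k * K' k j = K i k := fun k => by
      rw [← Finset.mul_sum, hK'.row k, mul_one]
    simp only [this]
    exact hK.row i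
  stat j := by
    simp only [Matrix.mul_apply, Finset.mul_sum]
    rw [Finset.sum_comm]
    have : ∀ k, ∑ i, w i * (K i k * K' k j) = w k * K' k j := fun k => by
      rw [← hK.stat k, Finset.sum_mul]
      exact Finset.sum_congr rfl fun i _ => by ring
    simp only [this]
    exact hK'.stat j

theorem stoch_of_chain {w : Fin n → ℝ} {A : Matrix (Fin n) (Fin n) ℝ} (hc : Chain n w A) :
    Stoch w A where
  nonneg := hc.A_nonneg
  row := hc.A_row
  stat j := by
    have : ∀ i, w i * A i j = w j * A j i := fun i => hc.rev i j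
    simp only [this]
    rw [← Finset.mul_sum, hc.A_row j, mul_one]

theorem stoch_pow {w : Fin n → ℝ} {A : Matrix (Fin n) (Fin n) ℝ} (hc : Chain n w A) (s : ℕ) :
    Stoch w (A ^ s) := by
  induction s with
  | zero => rw [pow_zero]; exact stoch_one w
  | succ s ih => rw [pow_succ]; exact stoch_mul ih (stoch_of_chain hc)

theorem stoch_of_kernel {w : Fin n → ℝ} {A : Matrix (Fin n) (Fin n) ℝ} (hc : Chain n w A)
    {κ : ℝ} {G B : Matrix (Fin n) (Fin n) ℝ} (hK : Kernel w A κ G B) : Stoch w B where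
  nonneg := hK.B_nonneg
  row := hK.B_row
  stat j := by
    have : ∀ i, w i * B i j = w j * B j i := fun i => hK.B_rev i j
    simp only [this]
    rw [← Finset.mul_sum, hK.B_row j, mul_one]

/-! ### the two-step average -/

/-- the three-point average `∑ w_i K_ij K'_jk F(i,j,k)` -/
noncomputable def tri (w : Fin n → ℝ) (K K' : Matrix (Fin n) (Fin n) ℝ)
    (F : Fin n → Fin n → Fin n → ℝ) : ℝ :=
  ∑ i, ∑ k, ∑ j, w i * K i j * K' j k * F i j k

theorem tri_mono {w : Fin n → ℝ} (hw : ∀ i, 0 ≤ w i) {K K' : Matrix (Fin n) (Fin n) ℝ}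
    (hK : Stoch w K) (hK' : Stoch w K') {F F' : Fin n → Fin n → Fin n → ℝ}
    (hF : ∀ i j k, F i j k ≤ F' i j k) : tri w K K' F ≤ tri w K K' F' := by
  unfold tri
  exact Finset.sum_le_sum fun i _ => Finset.sum_le_sum fun k _ => Finset.sum_le_sum fun j _ =>
    mul_le_mul_of_nonneg_left (hF i j k)
      (mul_nonneg (mul_nonneg (hw i) (hK.nonneg i j)) (hK'.nonneg j k))

theorem tri_lin (w : Fin n → ℝ) (K K' : Matrix (Fin n) (Fin n) ℝ)
    (F F' : Fin n → Fin n → Fin n → ℝ) :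
    tri w K K' (fun i j k => 2 * F i j k + 2 * F' i j k) = 2 * tri w K K' F + 2 * tri w K K' F' := by
  unfold tri
  simp only [Finset.mul_sum, ← Finset.sum_add_distrib]
  exact Finset.sum_congr rfl fun i _ => Finset.sum_congr rfl fun k _ =>
    Finset.sum_congr rfl fun j _ => by ring

theorem tri_ij {w : Fin n → ℝ} {K K' : Matrix (Fin n) (Fin n) ℝ} (hK' : Stoch w K')
    (D : Fin n → Fin n → ℝ) : tri w K K' (fun i j _ => D i j) = pair w K D := by
  unfold tri pair
  refine Finset.sum_congr rfl fun i _ => ?_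
  rw [Finset.sum_comm]
  refine Finset.sum_congr rfl fun j _ => ?_
  have : ∀ k, w i * K i j * K' j k * D i j = (w i * K i j * D i j) * K' j k := fun k => by ring
  simp only [this]
  rw [← Finset.mul_sum, hK'.row j, mul_one]

theorem tri_jk {w : Fin n → ℝ} {K K' : Matrix (Fin n) (Fin n) ℝ} (hK : Stoch w K)
    (D : Fin n → Fin n → ℝ) : tri w K K' (fun _ j k => D j k) = pair w K' D := by
  unfold tri pair
  have e1 : ∑ i, ∑ k, ∑ j, w i * K i j * K' j k * D j k
      = ∑ j, ∑ k, ∑ i, w i * K i j * K' j k * D j k := by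
    calc ∑ i, ∑ k, ∑ j, w i * K i j * K' j k * D j k
        = ∑ i, ∑ j, ∑ k, w i * K i j * K' j k * D j k :=
          Finset.sum_congr rfl fun i _ => Finset.sum_comm
      _ = ∑ j, ∑ i, ∑ k, w i * K i j * K' j k * D j k := Finset.sum_comm
      _ = ∑ j, ∑ k, ∑ i, w i * K i j * K' j k * D j k :=
          Finset.sum_congr rfl fun j _ => Finset.sum_comm
  rw [e1]
  refine Finset.sum_congr rfl fun j _ => Finset.sum_congr rfl fun k _ => ?_
  have : ∀ i, w i * K i j * K' j k * D j k = (w i * K i j) * (K' j k * D j k) := fun i => by ring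
  simp only [this]
  rw [← Finset.sum_mul, hK.stat j]
  ring

theorem tri_ik (w : Fin n → ℝ) (K K' : Matrix (Fin n) (Fin n) ℝ)
    (D : Fin n → Fin n → ℝ) : tri w K K' (fun i _ k => D i k) = pair w (K * K') D := by
  unfold tri pair
  refine Finset.sum_congr rfl fun i _ => Finset.sum_congr rfl fun k _ => ?_
  rw [Matrix.mul_apply, Finset.mul_sum, Finset.sum_mul]
  exact Finset.sum_congr rfl fun j _ => by ring

/-- **WP-E**: quasi-triangle inequality for the product of two stochastic kernels. -/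
theorem pair_mul_le {w : Fin n → ℝ} (hw : ∀ i, 0 ≤ w i) {K K' : Matrix (Fin n) (Fin n) ℝ}
    (hK : Stoch w K) (hK' : Stoch w K') {D : Fin n → Fin n → ℝ}
    (hD : ∀ i j k, D i k ≤ 2 * D i j + 2 * D j k) :
    pair w (K * K') D ≤ 2 * pair w K D + 2 * pair w K' D := by
  rw [← tri_ik, ← tri_ij hK' D, ← tri_jk hK D, ← tri_lin]
  exact tri_mono hw hK hK' fun i j k => hD i j k

/-- the reverse comparison: one factor against the product and the other factor -/
theorem pair_le_mul {w : Fin n → ℝ} (hw : ∀ i, 0 ≤ w i) {K K' : Matrix (Fin n) (Fin n) ℝ}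
    (hK : Stoch w K) (hK' : Stoch w K') {D : Fin n → Fin n → ℝ}
    (hD : ∀ i j k, D i k ≤ 2 * D i j + 2 * D j k) (hDs : ∀ i j, D i j = D j i) :
    pair w K D ≤ 2 * pair w (K * K') D + 2 * pair w K' D := by
  rw [← tri_ik, ← tri_ij hK' D, ← tri_jk hK D, ← tri_lin]
  refine tri_mono hw hK hK' fun i j k => ?_
  have := hD i k j
  rw [hDs k j] at this
  exact this

/-! ### time averages -/

/-- `δ₁ ≤ 4 D̄`. -/
theorem pair_one_le {w : Fin n → ℝ} {A : Matrix (Fin n) (Fin n) ℝ} (hc : Chain n w A)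
    {D : Fin n → Fin n → ℝ} (hD0 : ∀ i j, 0 ≤ D i j)
    (hD : ∀ i j k, D i k ≤ 2 * D i j + 2 * D j k) (hDs : ∀ i j, D i j = D j i)
    {t : ℕ} (ht : 2 ≤ t) :
    pair w A D ≤ 4 * ((1 / (t : ℝ)) * ∑ s ∈ Finset.Icc 1 t, pair w (A ^ s) D) := by
  have hδ0 : ∀ s, 0 ≤ pair w (A ^ s) D := fun s =>
    pair_nonneg hc.w_nonneg (stoch_pow hc s).nonneg hD0
  have hstep : ∀ s, pair w A D ≤ 2 * pair w (A ^ (s + 1)) D + 2 * pair w (A ^ s) D := fun s => by
    have := pair_le_mul hc.w_nonneg (stoch_of_chain hc) (stoch_pow hc s) hD hDs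
    rwa [← pow_succ'] at this
  have hQ : ∀ m : ℕ, 1 ≤ m → ((m : ℝ) + 1) * pair w A D + 2 * pair w (A ^ m) D
      ≤ 4 * ∑ s ∈ Finset.Icc 1 m, pair w (A ^ s) D := by
    intro m hm
    induction m, hm using Nat.le_induction with
    | base =>
      simp only [Finset.Icc_self, Finset.sum_singleton, pow_one, Nat.cast_one]
      linarith
    | succ m hm ih =>
      rw [Finset.sum_Icc_succ_top (by omega : 1 ≤ m + 1)]
      have h1 := hstep m
      push_cast
      linarith
  have hq := hQ t (by omega)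
  have ht0 : (0 : ℝ) < t := by exact_mod_cast (by omega : 0 < t)
  have h1 := hδ0 t
  have h2 : 0 ≤ pair w A D := by
    have := hδ0 1
    rwa [pow_one] at this
  rw [show 4 * ((1 / (t : ℝ)) * ∑ s ∈ Finset.Icc 1 t, pair w (A ^ s) D)
      = (4 * ∑ s ∈ Finset.Icc 1 t, pair w (A ^ s) D) / t by ring, le_div_iff₀ ht0]
  nlinarith

/-- `δ_t ≤ 4 D̄` (in the form `(t + 3) δ_t ≤ 4 ∑ δ_s`). -/
theorem pair_top_le {w : Fin n → ℝ} {A : Matrix (Fin n) (Fin n) ℝ} (hc : Chain n w A)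
    {D : Fin n → Fin n → ℝ} (hD : ∀ i j k, D i k ≤ 2 * D i j + 2 * D j k) {t : ℕ} (ht : 1 ≤ t) :
    ((t : ℝ) + 3) * pair w (A ^ t) D ≤ 4 * ∑ s ∈ Finset.Icc 1 t, pair w (A ^ s) D := by
  have hstep : ∀ s ∈ Finset.Ico 1 t,
      pair w (A ^ t) D ≤ 2 * pair w (A ^ s) D + 2 * pair w (A ^ (t - s)) D := by
    intro s hs
    rw [Finset.mem_Ico] at hs
    have := pair_mul_le hc.w_nonneg (stoch_pow hc s) (stoch_pow hc (t - s)) hD
    rwa [← pow_add, show s + (t - s) = t by omega] at this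
  have hsum := Finset.sum_le_sum hstep
  rw [Finset.sum_const, Nat.card_Ico, Finset.sum_add_distrib, ← Finset.mul_sum, ← Finset.mul_sum,
    Finset.sum_Ico_reflect (fun s => pair w (A ^ s) D) 1 (by omega : t ≤ t + 1)] at hsum
  have e1 : t + 1 - t = 1 := by omega
  have e2 : t + 1 - 1 = t := by omega
  rw [e1, e2] at hsum
  have hsplit : ∑ s ∈ Finset.Icc 1 t, pair w (A ^ s) D
      = ∑ s ∈ Finset.Ico 1 t, pair w (A ^ s) D + pair w (A ^ t) D := by
    rw [← Finset.sum_Ico_succ_top ht]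
    rfl
  rw [hsplit]
  rw [nsmul_eq_mul, Nat.cast_sub ht] at hsum
  push_cast at hsum
  linarith

theorem kappa_pow_le {t : ℕ} (ht : 55 ≤ t) : (1 - 2 / (t : ℝ)) ^ t ≤ 1 / 7 := by
  have ht0 : (0 : ℝ) < t := by exact_mod_cast (by omega : 0 < t)
  have ht55 : (55 : ℝ) ≤ t := by exact_mod_cast ht
  have h0 : (0 : ℝ) ≤ 1 - 2 / (t : ℝ) := by
    rw [sub_nonneg, div_le_one ht0]
    linarith
  have h1 : 1 - 2 / (t : ℝ) ≤ Real.exp (-(2 / (t : ℝ))) := Real.one_sub_le_exp_neg _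
  have h2 : (1 - 2 / (t : ℝ)) ^ t ≤ Real.exp (-(2 / (t : ℝ))) ^ t := pow_le_pow_left₀ h0 h1 t
  have h3 : Real.exp (-(2 / (t : ℝ))) ^ t = Real.exp (-2) := by
    rw [← Real.exp_nat_mul]
    congr 1
    field_simp
  have h4 : Real.exp (-2) ≤ 1 / 7 := by
    rw [Real.exp_neg, inv_eq_one_div]
    have he : (2.7 : ℝ) < Real.exp 1 := by
      have := Real.exp_one_gt_d9
      linarith
    have he2 : Real.exp 2 = Real.exp 1 * Real.exp 1 := by
      rw [← Real.exp_add]
      norm_num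
    have h7 : (7 : ℝ) ≤ Real.exp 2 := by
      rw [he2]
      nlinarith
    exact one_div_le_one_div_of_le (by norm_num) h7
  linarith [h2, h3.le, h4]

/-- `Δ_B ≤ (22/5) D̄` for `κ = 1 - 2/t`, `t ≥ 55`. -/
theorem pair_B_le {w : Fin n → ℝ} {A : Matrix (Fin n) (Fin n) ℝ} (hc : Chain n w A)
    {D : Fin n → Fin n → ℝ} (hD0 : ∀ i j, 0 ≤ D i j)
    (hD : ∀ i j k, D i k ≤ 2 * D i j + 2 * D j k) (hDs : ∀ i j, D i j = D j i)
    {t : ℕ} (ht : 55 ≤ t) {G B : Matrix (Fin n) (Fin n) ℝ}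
    (hK : Kernel w A (1 - 2 / (t : ℝ)) G B) :
    pair w B D ≤ 22 / 5 * ((1 / (t : ℝ)) * ∑ s ∈ Finset.Icc 1 t, pair w (A ^ s) D) := by
  have ht0 : (0 : ℝ) < t := by exact_mod_cast (by omega : 0 < t)
  have ht55 : (55 : ℝ) ≤ t := by exact_mod_cast ht
  set κ : ℝ := 1 - 2 / (t : ℝ) with hκ
  have hκ0 : 0 ≤ κ := by
    rw [hκ, sub_nonneg, div_le_one ht0]
    linarith
  have hκ1 : κ ≤ 1 := by
    rw [hκ]
    have : 0 ≤ 2 / (t : ℝ) := by positivity
    linarith
  have h1κ : 1 - κ = 2 / (t : ℝ) := by rw [hκ]; ring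
  have hδ0 : ∀ s, 0 ≤ pair w (A ^ s) D := fun s =>
    pair_nonneg hc.w_nonneg (stoch_pow hc s).nonneg hD0
  have hP0 : 0 ≤ pair w B D := pair_nonneg hc.w_nonneg hK.B_nonneg hD0
  set S : ℝ := ∑ s ∈ Finset.Icc 1 t, pair w (A ^ s) D with hS
  have hS0 : 0 ≤ S := Finset.sum_nonneg fun s _ => hδ0 s
  -- expansion of `B`
  have hexp : pair w B D = (1 - κ) * ∑ s ∈ Finset.Icc 1 t, κ ^ (s - 1) * pair w (A ^ s) D
      + κ ^ t * pair w (A ^ t * B) D := by
    have h := congrArg (fun K => pair w K D) (hK.B_pow t)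
    simp only [pair_add, pair_smul, pair_sum] at h
    exact h
  -- first part
  have hfirst : ∑ s ∈ Finset.Icc 1 t, κ ^ (s - 1) * pair w (A ^ s) D ≤ S := by
    refine Finset.sum_le_sum fun s _ => ?_
    have : κ ^ (s - 1) ≤ 1 := pow_le_one₀ hκ0 hκ1
    nlinarith [hδ0 s]
  -- second part
  have hsecond : pair w (A ^ t * B) D ≤ 2 * pair w (A ^ t) D + 2 * pair w B D :=
    pair_mul_le hc.w_nonneg (stoch_pow hc t) (stoch_of_kernel hc hK) hD
  have htop := pair_top_le hc hD (by omega : 1 ≤ t)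
  rw [← hS] at htop
  have hκt : κ ^ t ≤ 1 / 7 := kappa_pow_le ht
  have hκt0 : 0 ≤ κ ^ t := pow_nonneg hκ0 t
  have hδt := hδ0 t
  -- `δ_t ≤ 4 S / t`
  have hδt' : pair w (A ^ t) D ≤ 4 * (S / t) := by
    rw [show 4 * (S / (t : ℝ)) = 4 * S / t by ring, le_div_iff₀ ht0]
    nlinarith
  have hA : (1 - κ) * ∑ s ∈ Finset.Icc 1 t, κ ^ (s - 1) * pair w (A ^ s) D ≤ 2 * (S / t) := by
    rw [h1κ]
    have : 2 / (t : ℝ) * S = 2 * (S / t) := by ring
    rw [← this]
    exact mul_le_mul_of_nonneg_left hfirst (by positivity)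
  have hB : κ ^ t * pair w (A ^ t * B) D ≤ 1 / 7 * (2 * pair w (A ^ t) D + 2 * pair w B D) := by
    have h0 : 0 ≤ 2 * pair w (A ^ t) D + 2 * pair w B D := by linarith
    calc κ ^ t * pair w (A ^ t * B) D ≤ κ ^ t * (2 * pair w (A ^ t) D + 2 * pair w B D) :=
          mul_le_mul_of_nonneg_left hsecond hκt0
      _ ≤ 1 / 7 * (2 * pair w (A ^ t) D + 2 * pair w B D) :=
          mul_le_mul_of_nonneg_right hκt h0
  have hfin : pair w B D ≤ 22 / 5 * (S / t) := by linarith
  calc pair w B D ≤ 22 / 5 * (S / t) := hfin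
    _ = 22 / 5 * ((1 / (t : ℝ)) * S) := by ring

end Crest.Agent.Helper62.MC
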